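/-
S0170 team project, WP-A5b (bounds part, helper31): computable global bounds for all mixed
derivatives of the one-component potential fields `thetaField` of a move.

Route: `theta` is a sum of three tensor products `T(t) * ∏ⱼ xⱼ ^ (n j) * plat_j (xⱼ)`;
`mixedDeriv_single_tensor` (helper21) reduces mixed derivatives of a tensor product to products of
one-dimensional iterated derivatives; these are bounded with the Leibniz rule and the bounds for
the derivatives of the smooth step (WP-A1, taken as a hypothesis).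
-/
import Crest.Agent.Helper21.BoxFlow.MixedDeriv
import Crest.Agent.Helper68.BoxFlow.ThetaDefs

set_option autoImplicit false
open scoped ContDiff
open Crest.AnalysisR.BoxFlow Crest.Agent.Helper21 Crest.Agent.Helper68

namespace Crest.Agent.Helper31

/-! ### One-dimensional facts: the smooth step composed with affine maps -/

theorem contDiff_stp : ContDiff ℝ ∞ stp := by
  unfold stp
  exact Real.smoothTransition.contDiff

theorem contDiff_stp_affine (c d : ℝ) : ContDiff ℝ ∞ (fun x : ℝ => stp (c * x + d)) :=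
  contDiff_stp.comp ((contDiff_const.mul contDiff_id).add contDiff_const)

/-- Iterated derivatives of the smooth step composed with an affine map. -/
theorem iteratedDeriv_stp_affine (c d : ℝ) (n : ℕ) (x : ℝ) :
    iteratedDeriv n (fun x : ℝ => stp (c * x + d)) x = c ^ n * iteratedDeriv n stp (c * x + d) := by
  have h1 : ContDiff ℝ n (fun y : ℝ => stp (y + d)) :=
    (contDiff_stp.comp (contDiff_id.add contDiff_const)).of_le (by exact_mod_cast le_top)
  have h2 := iteratedDeriv_comp_const_mul h1 c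
  have h3 := iteratedDeriv_comp_add_const n stp d
  rw [h2, h3]

/-- Bound for the iterated derivatives of the smooth step composed with an affine map. -/
theorem abs_iteratedDeriv_stp_affine_le {B : ℕ → ℕ}
    (hB : ∀ (k : ℕ) (x : ℝ), |iteratedDeriv k stp x| ≤ (B k : ℝ)) (c d M : ℝ) (hc : |c| ≤ M)
    (n : ℕ) (x : ℝ) :
    |iteratedDeriv n (fun x : ℝ => stp (c * x + d)) x| ≤ M ^ n * (B n : ℝ) := by
  rw [iteratedDeriv_stp_affine, abs_mul, abs_pow]
  exact mul_le_mul (pow_le_pow_left₀ (abs_nonneg c) hc n) (hB n _) (abs_nonneg _)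
    (pow_nonneg ((abs_nonneg c).trans hc) n)

/-! ### Multiplication by the coordinate -/

/-- Derivatives of `x * f x`. -/
theorem iteratedDeriv_id_mul {f : ℝ → ℝ} (hf : ContDiff ℝ ∞ f) (k : ℕ) :
    iteratedDeriv k (fun x : ℝ => x * f x)
      = fun x => x * iteratedDeriv k f x + (k : ℝ) * iteratedDeriv (k - 1) f x := by
  have hd : ∀ j : ℕ, Differentiable ℝ (iteratedDeriv j f) := fun j =>
    hf.differentiable_iteratedDeriv j (by exact_mod_cast ENat.natCast_lt_top j)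
  induction k with
  | zero => funext x; simp
  | succ k ih =>
    rw [iteratedDeriv_succ, ih]
    funext x
    have h1 : HasDerivAt (iteratedDeriv k f) (iteratedDeriv (k + 1) f x) x := by
      rw [iteratedDeriv_succ]; exact (hd k x).hasDerivAt
    have h2 : HasDerivAt (fun x : ℝ => (k : ℝ) * iteratedDeriv (k - 1) f x)
        ((k : ℝ) * iteratedDeriv k f x) x := by
      cases k with
      | zero => simpa using hasDerivAt_const x (0 : ℝ)
      | succ j =>
        have : HasDerivAt (iteratedDeriv j f) (iteratedDeriv (j + 1) f x) x := by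
          rw [iteratedDeriv_succ]; exact (hd j x).hasDerivAt
        simpa using this.const_mul (((j + 1 : ℕ) : ℝ))
    have h3 : HasDerivAt (fun x : ℝ => x * iteratedDeriv k f x + (k : ℝ) * iteratedDeriv (k - 1) f x)
        (1 * iteratedDeriv k f x + x * iteratedDeriv (k + 1) f x + (k : ℝ) * iteratedDeriv k f x) x :=
      ((hasDerivAt_id x).mul h1).add h2
    rw [h3.deriv]
    simp only [Nat.add_sub_cancel]
    push_cast
    ring

/-- `f` is smooth, all its derivatives vanish outside `[-R, R]` and the `k`-th one is bounded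
by `H k`. -/
structure SB (f : ℝ → ℝ) (R : ℝ) (H : ℕ → ℝ) : Prop where
  smooth : ContDiff ℝ ∞ f
  supp : ∀ (k : ℕ) (x : ℝ), R < |x| → iteratedDeriv k f x = 0
  bound : ∀ (k : ℕ) (x : ℝ), |iteratedDeriv k f x| ≤ H k

theorem SB.nonneg {f : ℝ → ℝ} {R : ℝ} {H : ℕ → ℝ} (h : SB f R H) (k : ℕ) : 0 ≤ H k :=
  (abs_nonneg _).trans (h.bound k 0)

theorem SB.mulX {f : ℝ → ℝ} {R : ℝ} {H : ℕ → ℝ} (h : SB f R H) (hR : 0 ≤ R) (hH : Monotone H) :
    SB (fun x : ℝ => x * f x) R (fun k => (R + k) * H k) where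
  smooth := contDiff_id.mul h.smooth
  supp := by
    intro k x hx
    rw [iteratedDeriv_id_mul h.smooth]
    simp [h.supp k x hx, h.supp (k - 1) x hx]
  bound := by
    intro k x
    rw [iteratedDeriv_id_mul h.smooth]
    have h1 : |x * iteratedDeriv k f x| ≤ R * H k := by
      by_cases hx : R < |x|
      · rw [h.supp k x hx]; simpa using mul_nonneg hR (h.nonneg k)
      · rw [abs_mul]; exact mul_le_mul (not_lt.mp hx) (h.bound k x) (abs_nonneg _) hR
    have h2 : |(k : ℝ) * iteratedDeriv (k - 1) f x| ≤ k * H k := by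
      rw [abs_mul, abs_of_nonneg (Nat.cast_nonneg k)]
      exact mul_le_mul_of_nonneg_left ((h.bound (k - 1) x).trans (hH (Nat.sub_le k 1)))
        (Nat.cast_nonneg k)
    calc |x * iteratedDeriv k f x + (k : ℝ) * iteratedDeriv (k - 1) f x|
        ≤ |x * iteratedDeriv k f x| + |(k : ℝ) * iteratedDeriv (k - 1) f x| := abs_add_le _ _
      _ ≤ R * H k + k * H k := add_le_add h1 h2
      _ = (R + k) * H k := by ring

theorem SB.mulPow {f : ℝ → ℝ} {R : ℝ} {H : ℕ → ℝ} (h : SB f R H) (hR : 0 ≤ R) (hH : Monotone H)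
    (n : ℕ) :
    SB (fun x : ℝ => x ^ n * f x) R (fun k => (R + k) ^ n * H k) ∧
      Monotone (fun k : ℕ => (R + k) ^ n * H k) := by
  induction n with
  | zero => simpa using ⟨h, hH⟩
  | succ n ih =>
    obtain ⟨h1, h2⟩ := ih
    have h3 := h1.mulX hR h2
    have e1 : (fun x : ℝ => x ^ (n + 1) * f x) = fun x : ℝ => x * (x ^ n * f x) := by
      funext x; ring
    have e2 : (fun k : ℕ => (R + k) ^ (n + 1) * H k) = fun k : ℕ => (R + k) * ((R + k) ^ n * H k) := by
      funext k; ring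
    rw [e1, e2]
    refine ⟨h3, ?_⟩
    intro i j hij
    have hRi : (0 : ℝ) ≤ R + i := add_nonneg hR (Nat.cast_nonneg i)
    have hij' : R + (i : ℝ) ≤ R + j := by
      have : (i : ℝ) ≤ j := by exact_mod_cast hij
      linarith
    exact mul_le_mul hij' (h2 hij) (h1.nonneg i) (hRi.trans hij')

/-! ### The plateau function -/

theorem plat_eq (lo hi m : ℚ) :
    plat lo hi m = fun x : ℝ => stp ((1 / (m : ℝ)) * x + (-(((lo : ℝ) - m) / m)))
      * stp ((-(1 / (m : ℝ))) * x + (((hi : ℝ) + m) / m)) := by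
  funext x
  unfold plat
  congr 2 <;> ring

theorem contDiff_plat (lo hi m : ℚ) : ContDiff ℝ ∞ (plat lo hi m) := by
  rw [plat_eq]; exact (contDiff_stp_affine _ _).mul (contDiff_stp_affine _ _)

/-- The plateau is smooth, supported in `[-R, R]` and has explicitly bounded derivatives. -/
theorem plat_SB {B : ℕ → ℕ} (hBm : Monotone B)
    (hB : ∀ (k : ℕ) (x : ℝ), |iteratedDeriv k stp x| ≤ (B k : ℝ))
    (lo hi m : ℚ) (hm : 0 < m) (M R : ℝ) (hM : 1 / (m : ℝ) ≤ M)
    (hR1 : |(lo : ℝ) - m| ≤ R) (hR2 : |(hi : ℝ) + m| ≤ R) :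
    SB (plat lo hi m) R (fun k => 2 ^ k * M ^ k * (B k : ℝ) ^ 2) where
  smooth := contDiff_plat lo hi m
  supp := by
    intro k x hx
    have hm' : (0 : ℝ) < m := by exact_mod_cast hm
    have key : plat lo hi m =ᶠ[nhds x] fun _ => (0 : ℝ) := by
      rcases le_or_gt 0 x with h0 | h0
      · have hx' : (hi : ℝ) + m < x := by
          rw [abs_of_nonneg h0] at hx
          linarith [le_abs_self ((hi : ℝ) + m)]
        filter_upwards [Ioi_mem_nhds hx'] with y hy
        unfold plat stp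
        rw [Real.smoothTransition.zero_of_nonpos (x := ((hi : ℝ) + m - y) / m), mul_zero]
        exact div_nonpos_of_nonpos_of_nonneg (by linarith [Set.mem_Ioi.mp hy]) hm'.le
      · have hx' : x < (lo : ℝ) - m := by
          rw [abs_of_neg h0] at hx
          linarith [neg_abs_le ((lo : ℝ) - m)]
        filter_upwards [Iio_mem_nhds hx'] with y hy
        unfold plat stp
        rw [Real.smoothTransition.zero_of_nonpos (x := (y - ((lo : ℝ) - m)) / m), zero_mul]
        exact div_nonpos_of_nonpos_of_nonneg (by linarith [Set.mem_Iio.mp hy]) hm'.le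
    rw [key.iteratedDeriv_eq k]
    simp
  bound := by
    intro k x
    have hm' : (0 : ℝ) < m := by exact_mod_cast hm
    have hM0 : 0 ≤ M := (one_div_pos.mpr hm').le.trans hM
    have hc1 : |1 / (m : ℝ)| ≤ M := by rwa [abs_of_pos (one_div_pos.mpr hm')]
    have hc2 : |-(1 / (m : ℝ))| ≤ M := by rwa [abs_neg, abs_of_pos (one_div_pos.mpr hm')]
    rw [plat_eq]
    rw [iteratedDeriv_fun_mul
      ((contDiff_stp_affine _ _).contDiffAt.of_le (by exact_mod_cast le_top))
      ((contDiff_stp_affine _ _).contDiffAt.of_le (by exact_mod_cast le_top))]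
    have hterm : ∀ i ∈ Finset.range (k + 1),
        |(k.choose i : ℝ)
            * iteratedDeriv i (fun x : ℝ => stp ((1 / (m : ℝ)) * x + (-(((lo : ℝ) - m) / m)))) x
            * iteratedDeriv (k - i)
                (fun x : ℝ => stp ((-(1 / (m : ℝ))) * x + (((hi : ℝ) + m) / m))) x|
          ≤ (k.choose i : ℝ) * (M ^ k * (B k : ℝ) ^ 2) := by
      intro i hi'
      have hik : i ≤ k := Nat.lt_succ_iff.mp (Finset.mem_range.mp hi')
      have b1 := abs_iteratedDeriv_stp_affine_le hB (1 / (m : ℝ)) (-(((lo : ℝ) - m) / m)) M hc1 i x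
      have b2 := abs_iteratedDeriv_stp_affine_le hB (-(1 / (m : ℝ))) (((hi : ℝ) + m) / m) M hc2
        (k - i) x
      have hBi : (B i : ℝ) ≤ B k := by exact_mod_cast hBm hik
      have hBki : (B (k - i) : ℝ) ≤ B k := by exact_mod_cast hBm (Nat.sub_le k i)
      have b1' : |iteratedDeriv i (fun x : ℝ => stp ((1 / (m : ℝ)) * x + (-(((lo : ℝ) - m) / m)))) x|
          ≤ M ^ i * (B k : ℝ) :=
        b1.trans (mul_le_mul_of_nonneg_left hBi (pow_nonneg hM0 i))
      have b2' : |iteratedDeriv (k - i)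
          (fun x : ℝ => stp ((-(1 / (m : ℝ))) * x + (((hi : ℝ) + m) / m))) x|
          ≤ M ^ (k - i) * (B k : ℝ) :=
        b2.trans (mul_le_mul_of_nonneg_left hBki (pow_nonneg hM0 (k - i)))
      rw [abs_mul, abs_mul, abs_of_nonneg (Nat.cast_nonneg (k.choose i)), mul_assoc]
      have hpow : M ^ k = M ^ i * M ^ (k - i) := by rw [← pow_add, Nat.add_sub_cancel' hik]
      have hBk0 : (0 : ℝ) ≤ B k := Nat.cast_nonneg _
      calc (k.choose i : ℝ) * (|iteratedDeriv i
              (fun x : ℝ => stp ((1 / (m : ℝ)) * x + (-(((lo : ℝ) - m) / m)))) x|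
            * |iteratedDeriv (k - i)
              (fun x : ℝ => stp ((-(1 / (m : ℝ))) * x + (((hi : ℝ) + m) / m))) x|)
          ≤ (k.choose i : ℝ) * ((M ^ i * (B k : ℝ)) * (M ^ (k - i) * (B k : ℝ))) :=
            mul_le_mul_of_nonneg_left
              (mul_le_mul b1' b2' (abs_nonneg _) (mul_nonneg (pow_nonneg hM0 i) hBk0))
              (Nat.cast_nonneg _)
        _ = (k.choose i : ℝ) * (M ^ k * (B k : ℝ) ^ 2) := by rw [hpow]; ring
    calc |∑ i ∈ Finset.range (k + 1), (k.choose i : ℝ)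
            * iteratedDeriv i (fun x : ℝ => stp ((1 / (m : ℝ)) * x + (-(((lo : ℝ) - m) / m)))) x
            * iteratedDeriv (k - i)
                (fun x : ℝ => stp ((-(1 / (m : ℝ))) * x + (((hi : ℝ) + m) / m))) x|
        ≤ ∑ i ∈ Finset.range (k + 1), |(k.choose i : ℝ)
            * iteratedDeriv i (fun x : ℝ => stp ((1 / (m : ℝ)) * x + (-(((lo : ℝ) - m) / m)))) x
            * iteratedDeriv (k - i)
                (fun x : ℝ => stp ((-(1 / (m : ℝ))) * x + (((hi : ℝ) + m) / m))) x| :=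
          Finset.abs_sum_le_sum_abs _ _
      _ ≤ ∑ i ∈ Finset.range (k + 1), (k.choose i : ℝ) * (M ^ k * (B k : ℝ) ^ 2) :=
          Finset.sum_le_sum hterm
      _ = 2 ^ k * M ^ k * (B k : ℝ) ^ 2 := by
          rw [← Finset.sum_mul]
          have : (∑ i ∈ Finset.range (k + 1), (k.choose i : ℝ)) = 2 ^ k := by
            exact_mod_cast Nat.sum_range_choose k
          rw [this]; ring

theorem plat_bound_monotone {B : ℕ → ℕ} (hBm : Monotone B) (M : ℝ) (hM : 1 ≤ M) :
    Monotone (fun k : ℕ => (2 : ℝ) ^ k * M ^ k * (B k : ℝ) ^ 2) := by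
  intro i j hij
  have h0 : (0 : ℝ) ≤ M := zero_le_one.trans hM
  have hB : (B i : ℝ) ≤ B j := by exact_mod_cast hBm hij
  have hB0 : (0 : ℝ) ≤ B i := Nat.cast_nonneg _
  have h1 : (2 : ℝ) ^ i ≤ 2 ^ j := pow_le_pow_right₀ (by norm_num) hij
  have h2 : M ^ i ≤ M ^ j := pow_le_pow_right₀ hM hij
  have h3 : (B i : ℝ) ^ 2 ≤ (B j : ℝ) ^ 2 := pow_le_pow_left₀ hB0 hB 2
  dsimp only
  gcongr

/-! ### The time profile -/

theorem timeProfile_eq (t₀ t₁ : ℚ) :
    timeProfile t₀ t₁ = fun t : ℝ =>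
      stp ((1 / ((t₁ : ℝ) - t₀)) * t + (-((t₀ : ℝ) / ((t₁ : ℝ) - t₀)))) := by
  funext t
  unfold timeProfile
  congr 1
  ring

theorem contDiff_timeProfile (t₀ t₁ : ℚ) : ContDiff ℝ ∞ (timeProfile t₀ t₁) := by
  rw [timeProfile_eq]; exact contDiff_stp_affine _ _

/-! ### The tensor decomposition of `theta` -/

/-- The one-dimensional factors of a monomial piece of `theta`: the time profile in direction `0`,
and `x ^ (n j) * plat_j x` in the space direction `j + 1`. -/
noncomputable def monoFac (n : Fin 3 → ℕ) (lo hi : Fin 3 → ℚ) (m t₀ t₁ : ℚ) : Fin 4 → ℝ → ℝ :=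
  Fin.cases (timeProfile t₀ t₁) (fun j x => x ^ (n j) * plat (lo j) (hi j) m x)

/-- A monomial piece of `theta`, written as a tensor product. -/
noncomputable def mono (n : Fin 3 → ℕ) (lo hi : Fin 3 → ℚ) (m t₀ t₁ : ℚ) (p : ℝ × Sp) : ℝ :=
  ∏ d : Fin 4, monoFac n lo hi m t₀ t₁ d (coord d p)

theorem mono_eq (n : Fin 3 → ℕ) (lo hi : Fin 3 → ℚ) (m t₀ t₁ : ℚ) (p : ℝ × Sp) :
    mono n lo hi m t₀ t₁ p
      = timeProfile t₀ t₁ p.1 * ∏ j : Fin 3, ((p.2 j) ^ (n j) * plat (lo j) (hi j) m (p.2 j)) := by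
  unfold mono
  rw [Fin.prod_univ_succ]
  simp [monoFac, coord]

theorem contDiff_monoFac (n : Fin 3 → ℕ) (lo hi : Fin 3 → ℚ) (m t₀ t₁ : ℚ) (d : Fin 4) :
    ContDiff ℝ ∞ (monoFac n lo hi m t₀ t₁ d) := by
  refine Fin.cases ?_ (fun j => ?_) d
  · exact contDiff_timeProfile t₀ t₁
  · exact (contDiff_id.pow (n j)).mul (contDiff_plat (lo j) (hi j) m)

theorem contDiff_mono (n : Fin 3 → ℕ) (lo hi : Fin 3 → ℚ) (m t₀ t₁ : ℚ) :
    ContDiff ℝ ∞ (mono n lo hi m t₀ t₁) :=
  contDiff_prod fun d _ => (contDiff_monoFac n lo hi m t₀ t₁ d).comp (contDiff_coord d)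

theorem theta_eq_mono (a : Fin 3) (α : ℚ) (w lo hi : Fin 3 → ℚ) (m t₀ t₁ : ℚ) (p : ℝ × Sp) :
    theta a α w lo hi m t₀ t₁ p
      = (α : ℝ) * mono (Pi.single (a + 1) 1) lo hi m t₀ t₁ p
        + ((w (a + 1) : ℝ) / 2) * mono (Pi.single (a + 1) 2) lo hi m t₀ t₁ p
        + (w (a + 2) : ℝ) * mono (Pi.single (a + 1) 1 + Pi.single (a + 2) 1) lo hi m t₀ t₁ p := by
  simp only [mono_eq, theta, potF]
  fin_cases a <;> simp [Fin.prod_univ_three, Pi.single_apply] <;> ring

/-! ### The uniform bound for the one-dimensional factors -/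

/-- The uniform bound for the `k`-th derivative of every one-dimensional factor. -/
def gBound (B : ℕ → ℕ) (R M N : ℕ) (k : ℕ) : ℕ :=
  (R + k + 1) ^ 2 * (2 * (M + N + 1)) ^ k * (B k) ^ 2

theorem gBound_monotone {B : ℕ → ℕ} (hBm : Monotone B) (R M N : ℕ) :
    Monotone (gBound B R M N) := by
  intro i j hij
  unfold gBound
  have h1 : (R + i + 1) ^ 2 ≤ (R + j + 1) ^ 2 := Nat.pow_le_pow_left (by omega) 2
  have h2 : (2 * (M + N + 1)) ^ i ≤ (2 * (M + N + 1)) ^ j :=
    Nat.pow_le_pow_right (by omega) hij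
  have h3 : (B i) ^ 2 ≤ (B j) ^ 2 := Nat.pow_le_pow_left (hBm hij) 2
  exact Nat.mul_le_mul (Nat.mul_le_mul h1 h2) h3

theorem computable_gBound {B : ℕ → ℕ} (hB : Computable B) (R M N : ℕ) :
    Computable (gBound B R M N) := by
  have hpow : Primrec₂ (fun a b : ℕ => a ^ b) := Primrec₂.unpaired'.1 Nat.Primrec.pow
  have h1 : Primrec (fun k : ℕ => (R + k + 1) ^ 2 * (2 * (M + N + 1)) ^ k) := by
    refine Primrec.nat_mul.comp ?_ ?_
    · exact hpow.comp
        (Primrec.succ.comp (Primrec.nat_add.comp (Primrec.const R) Primrec.id)) (Primrec.const 2)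
    · exact hpow.comp (Primrec.const _) Primrec.id
  have h2 : Computable (fun k : ℕ => (B k) ^ 2) :=
    (hpow.to_comp).comp hB (Computable.const 2)
  exact ((Primrec.nat_mul.to_comp).comp h1.to_comp h2).of_eq (fun k => rfl)

theorem monoFac_bound {B : ℕ → ℕ} (hBm : Monotone B)
    (hB : ∀ (k : ℕ) (x : ℝ), |iteratedDeriv k stp x| ≤ (B k : ℝ))
    (n : Fin 3 → ℕ) (hn : ∀ j, n j ≤ 2) (lo hi : Fin 3 → ℚ) (m t₀ t₁ : ℚ)
    (hm : 0 < m) (ht : t₀ < t₁) (R M N : ℕ) (hM : 1 / (m : ℝ) ≤ M)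
    (hN : 1 / ((t₁ : ℝ) - t₀) ≤ N)
    (hR : ∀ j, |(lo j : ℝ) - m| ≤ R ∧ |(hi j : ℝ) + m| ≤ R) (d : Fin 4) (k : ℕ) (x : ℝ) :
    |iteratedDeriv k (monoFac n lo hi m t₀ t₁ d) x| ≤ ((gBound B R M N k : ℕ) : ℝ) := by
  have hm' : (0 : ℝ) < m := by exact_mod_cast hm
  have ht' : (0 : ℝ) < (t₁ : ℝ) - t₀ := by
    have : (t₀ : ℝ) < t₁ := by exact_mod_cast ht
    linarith
  refine Fin.cases ?_ (fun j => ?_) d
  · -- the time profile
    have e : monoFac n lo hi m t₀ t₁ 0 = timeProfile t₀ t₁ := rfl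
    rw [e, timeProfile_eq]
    have hc : |1 / ((t₁ : ℝ) - t₀)| ≤ (N : ℝ) := by rwa [abs_of_pos (one_div_pos.mpr ht')]
    refine (abs_iteratedDeriv_stp_affine_le hB _ _ (N : ℝ) hc k x).trans ?_
    have hnat : N ^ k * B k ≤ gBound B R M N k := by
      unfold gBound
      calc N ^ k * B k ≤ (2 * (M + N + 1)) ^ k * (B k) ^ 2 :=
            Nat.mul_le_mul (Nat.pow_le_pow_left (by omega) k) (Nat.le_self_pow two_ne_zero _)
        _ = 1 * ((2 * (M + N + 1)) ^ k * (B k) ^ 2) := (one_mul _).symm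
        _ ≤ (R + k + 1) ^ 2 * ((2 * (M + N + 1)) ^ k * (B k) ^ 2) :=
            Nat.mul_le_mul_right _ (Nat.one_le_pow _ _ (by omega))
        _ = (R + k + 1) ^ 2 * (2 * (M + N + 1)) ^ k * (B k) ^ 2 := by ring
    exact_mod_cast hnat
  · -- a space factor
    have e : monoFac n lo hi m t₀ t₁ j.succ = fun x : ℝ => x ^ (n j) * plat (lo j) (hi j) m x :=
      rfl
    rw [e]
    have hM1 : (1 : ℝ) ≤ M := by
      have h0 : (0 : ℝ) < M := (one_div_pos.mpr hm').trans_le hM
      have : 0 < M := by exact_mod_cast h0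
      exact_mod_cast this
    have hSB := plat_SB hBm hB (lo j) (hi j) m hm (M : ℝ) (R : ℝ) hM (hR j).1 (hR j).2
    have hpow := (hSB.mulPow (Nat.cast_nonneg R) (plat_bound_monotone hBm (M : ℝ) hM1) (n j)).1
    refine (hpow.bound k x).trans ?_
    have hnat : (R + k) ^ (n j) * (2 ^ k * M ^ k * (B k) ^ 2) ≤ gBound B R M N k := by
      unfold gBound
      have h1 : (R + k) ^ (n j) ≤ (R + k + 1) ^ 2 :=
        (Nat.pow_le_pow_left (by omega) (n j)).trans (Nat.pow_le_pow_right (by omega) (hn j))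
      have h2 : 2 ^ k * M ^ k ≤ (2 * (M + N + 1)) ^ k := by
        rw [← Nat.mul_pow]
        exact Nat.pow_le_pow_left (by omega) k
      calc (R + k) ^ (n j) * (2 ^ k * M ^ k * (B k) ^ 2)
          ≤ (R + k + 1) ^ 2 * ((2 * (M + N + 1)) ^ k * (B k) ^ 2) :=
            Nat.mul_le_mul h1 (Nat.mul_le_mul_right _ h2)
        _ = (R + k + 1) ^ 2 * (2 * (M + N + 1)) ^ k * (B k) ^ 2 := by ring
    have := (Nat.cast_le (α := ℝ)).mpr hnat
    push_cast at this
    exact this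

/-! ### Bounds for the mixed derivatives -/

theorem contDiff_single {θ : ℝ × Sp → ℝ} (hθ : ContDiff ℝ ∞ θ) (e : Fin 3) :
    ContDiff ℝ ∞ (fun p => (Pi.single e (θ p) : Sp)) := by
  rw [contDiff_pi]
  intro i
  by_cases hi : i = e
  · subst hi; simpa using hθ
  · simpa [Pi.single_eq_of_ne hi] using (contDiff_const : ContDiff ℝ ∞ fun _ : ℝ × Sp => (0 : ℝ))

/-- The one-component field made of a monomial piece. -/
noncomputable def monoField (e : Fin 3) (n : Fin 3 → ℕ) (lo hi : Fin 3 → ℚ) (m t₀ t₁ : ℚ) :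
    Field := fun p => Pi.single e (mono n lo hi m t₀ t₁ p)

theorem contDiff_monoField (e : Fin 3) (n : Fin 3 → ℕ) (lo hi : Fin 3 → ℚ) (m t₀ t₁ : ℚ) :
    ContDiff ℝ ∞ (monoField e n lo hi m t₀ t₁) :=
  contDiff_single (contDiff_mono n lo hi m t₀ t₁) e

theorem monoField_bound {B : ℕ → ℕ} (hBm : Monotone B)
    (hB : ∀ (k : ℕ) (x : ℝ), |iteratedDeriv k stp x| ≤ (B k : ℝ))
    (e : Fin 3) (n : Fin 3 → ℕ) (hn : ∀ j, n j ≤ 2) (lo hi : Fin 3 → ℚ) (m t₀ t₁ : ℚ)
    (hm : 0 < m) (ht : t₀ < t₁) (R M N : ℕ) (hM : 1 / (m : ℝ) ≤ M)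
    (hN : 1 / ((t₁ : ℝ) - t₀) ≤ N)
    (hR : ∀ j, |(lo j : ℝ) - m| ≤ R ∧ |(hi j : ℝ) + m| ≤ R)
    (ds : List (Fin 4)) (p : ℝ × Sp) (j : Fin 3) :
    |mixedDeriv ds (monoField e n lo hi m t₀ t₁) p j|
      ≤ ((gBound B R M N ds.length : ℕ) : ℝ) ^ 4 := by
  have key := mixedDeriv_single_tensor (monoFac n lo hi m t₀ t₁)
    (contDiff_monoFac n lo hi m t₀ t₁) e ds p j
  have e1 : monoField e n lo hi m t₀ t₁
      = fun p => (Pi.single e (∏ d, monoFac n lo hi m t₀ t₁ d (coord d p)) : Sp) := rfl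
  rw [e1, key]
  have hG0 : (0 : ℝ) ≤ ((gBound B R M N ds.length : ℕ) : ℝ) := Nat.cast_nonneg _
  split_ifs with hj
  · rw [Finset.abs_prod]
    calc ∏ d : Fin 4, |iteratedDeriv (ds.count d) (monoFac n lo hi m t₀ t₁ d) (coord d p)|
        ≤ ∏ _d : Fin 4, ((gBound B R M N ds.length : ℕ) : ℝ) := by
          refine Finset.prod_le_prod (fun _ _ => abs_nonneg _) (fun d _ => ?_)
          refine (monoFac_bound hBm hB n hn lo hi m t₀ t₁ hm ht R M N hM hN hR d _ _).trans ?_
          exact_mod_cast gBound_monotone hBm R M N List.count_le_length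
      _ = ((gBound B R M N ds.length : ℕ) : ℝ) ^ 4 := by simp
  · rw [abs_zero]; exact pow_nonneg hG0 4

theorem thetaField_eq (e a : Fin 3) (α : ℚ) (w lo hi : Fin 3 → ℚ) (m t₀ t₁ : ℚ) :
    thetaField e a α w lo hi m t₀ t₁ = fun p =>
      ((α : ℝ) • monoField e (Pi.single (a + 1) 1) lo hi m t₀ t₁ p
        + ((w (a + 1) : ℝ) / 2) • monoField e (Pi.single (a + 1) 2) lo hi m t₀ t₁ p)
        + (w (a + 2) : ℝ) • monoField e (Pi.single (a + 1) 1 + Pi.single (a + 2) 1) lo hi m t₀ t₁ p := by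
  funext p
  unfold thetaField monoField
  rw [theta_eq_mono]
  ext j
  by_cases hj : j = e
  · subst hj; simp
  · simp [Pi.single_eq_of_ne hj]

theorem contDiff_thetaField (e a : Fin 3) (α : ℚ) (w lo hi : Fin 3 → ℚ) (m t₀ t₁ : ℚ) :
    ContDiff ℝ ∞ (thetaField e a α w lo hi m t₀ t₁) := by
  rw [thetaField_eq]
  have c1 := contDiff_monoField e (Pi.single (a + 1) 1) lo hi m t₀ t₁
  have c2 := contDiff_monoField e (Pi.single (a + 1) 2) lo hi m t₀ t₁
  have c3 := contDiff_monoField e (Pi.single (a + 1) 1 + Pi.single (a + 2) 1) lo hi m t₀ t₁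
  have s1 : ContDiff ℝ ∞ (fun p => (α : ℝ) • monoField e (Pi.single (a + 1) 1) lo hi m t₀ t₁ p) :=
    c1.const_smul _
  have s2 : ContDiff ℝ ∞
      (fun p => ((w (a + 1) : ℝ) / 2) • monoField e (Pi.single (a + 1) 2) lo hi m t₀ t₁ p) :=
    c2.const_smul _
  have s3 : ContDiff ℝ ∞ (fun p => (w (a + 2) : ℝ) •
      monoField e (Pi.single (a + 1) 1 + Pi.single (a + 2) 1) lo hi m t₀ t₁ p) :=
    c3.const_smul _
  exact (s1.add s2).add s3

/-- **Bounds for `thetaField`** (the `hbound` hypothesis of WP-A3 for WP-A5b): from a computable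
monotone bound for the derivatives of the smooth step (WP-A1), a computable global bound for all
mixed derivatives of `thetaField`. -/
theorem thetaField_bound
    (hA1 : ∃ B : ℕ → ℕ, Computable B ∧ Monotone B ∧
      ∀ (k : ℕ) (x : ℝ), |iteratedDeriv k stp x| ≤ (B k : ℝ))
    (e a : Fin 3) (α : ℚ) (w lo hi : Fin 3 → ℚ) (m t₀ t₁ : ℚ) (hm : 0 < m) (ht : t₀ < t₁) :
    ∃ bound : List (Fin 4) → ℕ, Computable bound ∧
      ∀ (ds : List (Fin 4)) (p : ℝ × (Fin 3 → ℝ)) (j : Fin 3),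
        |mixedDeriv ds (thetaField e a α w lo hi m t₀ t₁) p j| ≤ (bound ds : ℝ) := by
  obtain ⟨B, hBc, hBm, hB⟩ := hA1
  obtain ⟨M, hM⟩ := exists_nat_ge (1 / (m : ℝ))
  obtain ⟨N, hN⟩ := exists_nat_ge (1 / ((t₁ : ℝ) - t₀))
  obtain ⟨R, hR'⟩ := exists_nat_ge (∑ j : Fin 3, (|(lo j : ℝ) - m| + |(hi j : ℝ) + m|))
  obtain ⟨C, hC⟩ := exists_nat_ge (|(α : ℝ)| + |(w (a + 1) : ℝ) / 2| + |(w (a + 2) : ℝ)|)
  have hR : ∀ j, |(lo j : ℝ) - m| ≤ R ∧ |(hi j : ℝ) + m| ≤ R := by
    intro j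
    have h1 : |(lo j : ℝ) - m| + |(hi j : ℝ) + m|
        ≤ ∑ j : Fin 3, (|(lo j : ℝ) - m| + |(hi j : ℝ) + m|) :=
      Finset.single_le_sum (f := fun j : Fin 3 => |(lo j : ℝ) - m| + |(hi j : ℝ) + m|)
        (fun i _ => add_nonneg (abs_nonneg _) (abs_nonneg _)) (Finset.mem_univ j)
    constructor
    · linarith [abs_nonneg ((hi j : ℝ) + m)]
    · linarith [abs_nonneg ((lo j : ℝ) - m)]
  refine ⟨fun ds => C * (gBound B R M N ds.length) ^ 4, ?_, ?_⟩
  · have hpow : Primrec₂ (fun a b : ℕ => a ^ b) := Primrec₂.unpaired'.1 Nat.Primrec.pow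
    have h1 : Primrec (fun x : ℕ => C * x ^ 4) :=
      Primrec.nat_mul.comp (Primrec.const C) (hpow.comp Primrec.id (Primrec.const 4))
    exact h1.to_comp.comp ((computable_gBound hBc R M N).comp Computable.list_length)
  · intro ds p j
    have hn1 : ∀ j : Fin 3, (Pi.single (a + 1) 1 : Fin 3 → ℕ) j ≤ 2 := by
      intro j; rw [Pi.single_apply]; split_ifs <;> norm_num
    have hn2 : ∀ j : Fin 3, (Pi.single (a + 1) 2 : Fin 3 → ℕ) j ≤ 2 := by
      intro j; rw [Pi.single_apply]; split_ifs <;> norm_num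
    have hn3 : ∀ j : Fin 3, (Pi.single (a + 1) 1 + Pi.single (a + 2) 1 : Fin 3 → ℕ) j ≤ 2 := by
      intro j; rw [Pi.add_apply, Pi.single_apply, Pi.single_apply]; split_ifs <;> norm_num
    have b1 := monoField_bound hBm hB e _ hn1 lo hi m t₀ t₁ hm ht R M N hM hN hR ds p j
    have b2 := monoField_bound hBm hB e _ hn2 lo hi m t₀ t₁ hm ht R M N hM hN hR ds p j
    have b3 := monoField_bound hBm hB e _ hn3 lo hi m t₀ t₁ hm ht R M N hM hN hR ds p j
    have c1 := contDiff_monoField e (Pi.single (a + 1) 1) lo hi m t₀ t₁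
    have c2 := contDiff_monoField e (Pi.single (a + 1) 2) lo hi m t₀ t₁
    have c3 := contDiff_monoField e (Pi.single (a + 1) 1 + Pi.single (a + 2) 1) lo hi m t₀ t₁
    have s1 : ContDiff ℝ ∞
        (fun p => (α : ℝ) • monoField e (Pi.single (a + 1) 1) lo hi m t₀ t₁ p) :=
      c1.const_smul _
    have s2 : ContDiff ℝ ∞
        (fun p => ((w (a + 1) : ℝ) / 2) • monoField e (Pi.single (a + 1) 2) lo hi m t₀ t₁ p) :=
      c2.const_smul _
    have s3 : ContDiff ℝ ∞ (fun p => (w (a + 2) : ℝ) •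
        monoField e (Pi.single (a + 1) 1 + Pi.single (a + 2) 1) lo hi m t₀ t₁ p) :=
      c3.const_smul _
    rw [thetaField_eq, mixedDeriv_add (s1.add s2) s3, mixedDeriv_add s1 s2,
      mixedDeriv_const_smul c1, mixedDeriv_const_smul c2, mixedDeriv_const_smul c3]
    simp only [Pi.add_apply, Pi.smul_apply, smul_eq_mul]
    set G : ℝ := ((gBound B R M N ds.length : ℕ) : ℝ) ^ 4 with hG
    have hG0 : 0 ≤ G := pow_nonneg (Nat.cast_nonneg _) 4
    set A1 := mixedDeriv ds (monoField e (Pi.single (a + 1) 1) lo hi m t₀ t₁) p j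
    set A2 := mixedDeriv ds (monoField e (Pi.single (a + 1) 2) lo hi m t₀ t₁) p j
    set A3 := mixedDeriv ds
      (monoField e (Pi.single (a + 1) 1 + Pi.single (a + 2) 1) lo hi m t₀ t₁) p j
    calc |(α : ℝ) * A1 + (w (a + 1) : ℝ) / 2 * A2 + (w (a + 2) : ℝ) * A3|
        ≤ |(α : ℝ) * A1| + |(w (a + 1) : ℝ) / 2 * A2| + |(w (a + 2) : ℝ) * A3| :=
          abs_add_three _ _ _
      _ = |(α : ℝ)| * |A1| + |(w (a + 1) : ℝ) / 2| * |A2| + |(w (a + 2) : ℝ)| * |A3| := by
          rw [abs_mul, abs_mul, abs_mul]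
      _ ≤ |(α : ℝ)| * G + |(w (a + 1) : ℝ) / 2| * G + |(w (a + 2) : ℝ)| * G :=
          add_le_add (add_le_add (mul_le_mul_of_nonneg_left b1 (abs_nonneg _))
            (mul_le_mul_of_nonneg_left b2 (abs_nonneg _)))
            (mul_le_mul_of_nonneg_left b3 (abs_nonneg _))
      _ = (|(α : ℝ)| + |(w (a + 1) : ℝ) / 2| + |(w (a + 2) : ℝ)|) * G := by ring
      _ ≤ (C : ℝ) * G := mul_le_mul_of_nonneg_right hC hG0
      _ = ((C * (gBound B R M N ds.length) ^ 4 : ℕ) : ℝ) := by rw [hG]; push_cast; ring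

end Crest.Agent.Helper31
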